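import Vale.Agent.CK.G1Fin
import Vale.Agent.CK.G2mid
import Vale.Agent.CK.G2hiP
import Vale.Agent.CK.J1
import Vale.Agent.CK.Base
import Vale.Agent.CK.Final

/-!
# P322: the Courtade-Kumar conjecture
-/

namespace Vale.Agent.Results.P322.CourtadeKumar

open Vale.Agent.CK

/-- **The Courtade-Kumar conjecture.** Let `X` be uniform on the cube `{-1,1}^n` (coded by
`Fin n → Bool`), let `Y` be the output of `n` independent binary symmetric channels with crossover
probability `ε ∈ [0, 1/2]` and input `X`. Then `I(f(X); Y) ≤ 1 - h₂(ε)` for every Boolean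
function `f`. -/
theorem result (n : ℕ) (f : (Fin n → Bool) → Bool) (ε : ℝ) (h0 : 0 ≤ ε) (h1 : ε ≤ 1 / 2) :
    mutualInfo (jointLaw ε f) ≤ 1 - h2 ε := by
  have ht0 : (0 : ℝ) < 3 / 4 := by norm_num
  have ht1 : (3 / 4 : ℝ) < 1 := by norm_num
  exact ck_of_TPstar
    (TPstar_of G1.partG1 G2m.G2mid partG2_hi (fun x H hx0 hx1 h => J1 hx0 hx1 h))
    (fun p q hp0 hp1 hq0 hq1 => base1 ht0 ht1 hp0 hp1 hq0 hq1)
    (fun a ha0 ha1 => GG_diag ht0 ht1 ha0 ha1) n f ε h0 h1

end Vale.Agent.Results.P322.CourtadeKumar
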